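import Claimed.Agent.R289.Tr.AdmP
import Claimed.Agent.R289.Tr.AdmMin
import Claimed.Agent.R289.Tr.GateFr
import Claimed.Agent.R289.Tr.Rd
import Claimed.Agent.R289.Tr.AdmOut
import Claimed.Agent.R289.Tr.AccWM

/-!
# Row 289 (S0537, Cardy for Poisson-Voronoi), THE WALL, ADMISSION, file Adm/RecI : BLOCK D AT THE MODEL      (helper224; prefix `pvae_`)

The model free block D (259, `Tr/AdmMin`: from an explicit gate `g₀` to the gate of record with its four feet) is instantiated at the plane map `(delbPl Y).toMap` of a nice point set `Y` with the mesh of the plug of record `pvkdP r`.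
* sec. 1  numbers of the plug of record: `pvae_core`, `pvae_short` (edges which start in `[-2r,2r]²` have length `≤ r/8`), `pvae_sep`, `pvae_no_jump` (no edge West room - East room), `pvae_box` (tube = West room, inner disc, East room),
          `pvae_Zm_Ln`, `pvae_Zp_Ln`, `pvae_Ln_disj`, `pvae_Dr_off`.
* sec. 2  the frame: `pvae_site`, **`pvae_frame`** (`PvgnFr` between the star of the inner disc and the faces with three vertices in the outer disc; forms `hI`, `hO` of `pvzt_record` by `rfl`).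
* sec. 3  `pvae_CH_of_gate` : ONE gate of record + four joins from its feet ⟹ `PvkoCH (pvkdP r) Y s` (262: `pvko_tg_intro`, `pvko_CH_of_pos`).
* sec. 4  **`pvae_record`** = `pvzt_record` AT THE MODEL: explicit gate `g₀` between the round frames, through, banks in the tube `Tb`, feet in `Zm` / `Zp`, four lanes from its feet ⟹ `PvkoCH (pvkdP r) Y s`.      No other hypothesis than `0 < r`, `PvatNice Y`, the mesh of the plug.
* sec. 5  **`pvae_out`** = BLOCKS C + D = THE FIELD `out` OF `PvkoNet` (262): `K : PvazLk N`, `K.Pos val 0 r (2r) μ (-2r) (2r) (-r/2) (r/2)` (140), the two quads in `Zm` / `Zp`, the classes of the four lanes in `Ln σ β`, the doors in `Dr σ β` ⟹ `N.Out s → PvkoCH (pvkdP r) Y s`.      `pvae_out_del` : the same on `delMap h`.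
-/

set_option autoImplicit false

namespace Claimed.Agent.R289

open Set Metric Relation Claims.C0465

variable {Y : Set ℂ} {r : ℝ}

/-! ## 1. numbers -/

theorem pvae_core (hr : 0 < r) {a : ℂ} (h1 : |a.re| ≤ 2 * r) (h2 : |a.im| ≤ 2 * r) : a ∈ pvtrCore (3 * (r / 16)) (pvwSq 0 (3 * r)) := by
  intro w hw
  rw [mem_closedBall, dist_eq_norm] at hw
  have e1 : |(w - a).re| ≤ ‖w - a‖ := Complex.abs_re_le_norm _
  have e2 : |(w - a).im| ≤ ‖w - a‖ := Complex.abs_im_le_norm _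
  rw [Complex.sub_re] at e1
  rw [Complex.sub_im] at e2
  refine ⟨?_, ?_⟩
  · rw [sub_zero, abs_le]
    rw [abs_le] at h1 e1
    constructor <;> linarith [h1.1, h1.2, e1.1, e1.2]
  · rw [sub_zero, abs_le]
    rw [abs_le] at h2 e2
    constructor <;> linarith [h2.1, h2.2, e2.1, e2.2]

/-- an edge which starts in the square `[-2r, 2r]²` is short -/
theorem pvae_short (hr : 0 < r) (hG : DelGood Y) (hm : PvtrMesh (r / 16) (pvwSq 0 (3 * r)) Y) {u v : Y} (h : (delbPl Y).toMap.Adj u v) (h1 : |(u : ℂ).re| ≤ 2 * r)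
    (h2 : |(u : ℂ).im| ≤ 2 * r) : ‖(u : ℂ) - v‖ ≤ r / 8 := by
  have := pvge_adj_short (by positivity) hm (pvae_core hr h1 h2) ((pvrd_adj hG).1 h)
  linarith

theorem pvae_sep (hr : 0 < r) (hG : DelGood Y) (hm : PvtrMesh (r / 16) (pvwSq 0 (3 * r)) Y) (u v : Y) (h : (delbPl Y).toMap.Adj u v) (hu : ‖(u : ℂ) - 0‖ < r) :
    ‖(v : ℂ) - 0‖ < 2 * r := by
  rw [sub_zero] at hu ⊢
  have e1 : |(u : ℂ).re| ≤ ‖(u : ℂ)‖ := Complex.abs_re_le_norm _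
  have e2 : |(u : ℂ).im| ≤ ‖(u : ℂ)‖ := Complex.abs_im_le_norm _
  have e3 := pvae_short hr hG hm h (by linarith) (by linarith)
  have e4 : ‖(v : ℂ)‖ ≤ ‖(u : ℂ)‖ + ‖(u : ℂ) - v‖ := by
    have := norm_sub_le (u : ℂ) ((u : ℂ) - v)
    rwa [sub_sub_cancel] at this
  linarith

/-- no edge from the West room to the East room -/
theorem pvae_no_jump (hr : 0 < r) (hG : DelGood Y) (hm : PvtrMesh (r / 16) (pvwSq 0 (3 * r)) Y) {u v : Y} (hu : (u : ℂ) ∈ (pvkdP r).Zm) (hv : (v : ℂ) ∈ (pvkdP r).Zp) :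
    ¬ (u = v ∨ (delbPl Y).toMap.Adj u v) := by
  obtain ⟨a1, a2, a3, a4⟩ := hu
  obtain ⟨b1, b2, b3, b4⟩ := hv
  rintro (rfl | h)
  · linarith
  · have e3 := pvae_short hr hG hm h (abs_le.2 ⟨by linarith, by linarith⟩) (abs_le.2 ⟨by linarith, by linarith⟩)
    have e1 : |((u : ℂ) - v).re| ≤ ‖(u : ℂ) - v‖ := Complex.abs_re_le_norm _
    rw [Complex.sub_re, abs_le] at e1
    linarith [e1.1]

/-- the tube is covered by the West room, the inner disc, the East room -/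
theorem pvae_box {w : ℂ} (hw : w ∈ (pvkdP r).Tb) : w ∈ (pvkdP r).Zm ∨ w ∈ ball (0 : ℂ) r ∨ w ∈ (pvkdP r).Zp := by
  obtain ⟨a1, a2, a3, a4⟩ := hw
  rcases le_or_gt w.re (-(r / 2)) with h | h
  · exact Or.inl ⟨a1, h, a3, a4⟩
  rcases le_or_gt (r / 2) w.re with h' | h'
  · exact Or.inr (Or.inr ⟨h', a2, a3, a4⟩)
  refine Or.inr (Or.inl ?_)
  rw [mem_ball, dist_zero_right]
  have e : ‖w‖ ≤ |w.re| + |w.im| := Complex.norm_le_abs_re_add_abs_im w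
  have e1 : |w.re| < r / 2 := abs_lt.2 ⟨h, h'⟩
  have e2 : |w.im| ≤ r / 2 := abs_le.2 ⟨a3, a4⟩
  linarith

theorem pvae_Zm_Tb (hr : 0 < r) : (pvkdP r).Zm ⊆ (pvkdP r).Tb := fun _ ⟨a1, a2, a3, a4⟩ => ⟨a1, by linarith, a3, a4⟩

theorem pvae_Zp_Tb (hr : 0 < r) : (pvkdP r).Zp ⊆ (pvkdP r).Tb := fun _ ⟨a1, a2, a3, a4⟩ => ⟨by linarith, a2, a3, a4⟩

theorem pvae_Zm_Ln (hr : 0 < r) (β : Bool) : (pvkdP r).Zm ⊆ (pvkdP r).Ln false β := by
  rintro w ⟨a1, a2, a3, a4⟩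
  cases β
  · exact Or.inl ⟨by linarith, by linarith, by linarith, a4⟩
  · exact Or.inl ⟨by linarith, by linarith, a3, by linarith⟩

theorem pvae_Zp_Ln (hr : 0 < r) (β : Bool) : (pvkdP r).Zp ⊆ (pvkdP r).Ln true β := by
  rintro w ⟨a1, a2, a3, a4⟩
  cases β
  · exact Or.inl ⟨a1, by linarith, by linarith, a4⟩
  · exact Or.inl ⟨a1, by linarith, a3, by linarith⟩

theorem pvae_Ln_west (hr : 0 < r) (β : Bool) {w : ℂ} (hw : w ∈ (pvkdP r).Ln false β) : w.re ≤ -(r / 2) := by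
  cases β
  · rcases hw with ⟨-, a2, -, -⟩ | ⟨-, a2, -, -⟩ <;> linarith
  · rcases hw with ⟨-, a2, -, -⟩ | ⟨-, a2, -, -⟩ <;> linarith

theorem pvae_Ln_east (hr : 0 < r) (β : Bool) {w : ℂ} (hw : w ∈ (pvkdP r).Ln true β) : r / 2 ≤ w.re := by
  cases β
  · rcases hw with ⟨a1, -, -, -⟩ | ⟨a1, -, -, -⟩ <;> linarith
  · rcases hw with ⟨a1, -, -, -⟩ | ⟨a1, -, -, -⟩ <;> linarith

theorem pvae_Ln_disj (hr : 0 < r) (β β' : Bool) : Disjoint ((pvkdP r).Ln false β) ((pvkdP r).Ln true β') :=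
  disjoint_left.2 fun _ h1 h2 => by linarith [pvae_Ln_west hr β h1, pvae_Ln_east hr β' h2]

theorem pvae_Dr_off (hr : 0 < r) (σ β : Bool) : Disjoint ((pvkdP r).Dr σ β) (ball (0 : ℂ) (2 * r)) := by
  refine disjoint_left.2 fun w h1 h2 => ?_
  rw [mem_ball, dist_zero_right] at h2
  have e1 : |w.re| ≤ ‖w‖ := Complex.abs_re_le_norm _
  rw [abs_le] at e1
  cases σ <;> cases β
  · obtain ⟨-, a2, -, -⟩ := h1; linarith [e1.1]
  · obtain ⟨-, a2, -, -⟩ := h1; linarith [e1.1]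
  · obtain ⟨a1, -, -, -⟩ := h1; linarith [e1.2]
  · obtain ⟨a1, -, -, -⟩ := h1; linarith [e1.2]

/-! ## 2. the frame -/

/-- a site near a point of the core -/
theorem pvae_site (hr : 0 < r) (hm : PvtrMesh (r / 16) (pvwSq 0 (3 * r)) Y) {a : ℂ} (h1 : |a.re| ≤ 2 * r + r / 2) (h2 : |a.im| ≤ 2 * r + r / 2) : ∃ u : Y, ‖a - u‖ ≤ r / 16 := by
  have hc : a ∈ pvtrCore (r / 16) (pvwSq 0 (3 * r)) := by
    intro w hw
    rw [mem_closedBall, dist_eq_norm] at hw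
    have e1 : |(w - a).re| ≤ ‖w - a‖ := Complex.abs_re_le_norm _
    have e2 : |(w - a).im| ≤ ‖w - a‖ := Complex.abs_im_le_norm _
    rw [Complex.sub_re] at e1
    rw [Complex.sub_im] at e2
    refine ⟨?_, ?_⟩
    · rw [sub_zero, abs_le]
      rw [abs_le] at h1 e1
      constructor <;> linarith [h1.1, h1.2, e1.1, e1.2]
    · rw [sub_zero, abs_le]
      rw [abs_le] at h2 e2
      constructor <;> linarith [h2.1, h2.2, e2.1, e2.2]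
  obtain ⟨u, hu, h⟩ := hm a hc
  exact ⟨⟨u, hu⟩, h⟩

/-- **THE FRAME OF THE PLUG OF RECORD** -/
theorem pvae_frame (hr : 0 < r) (hG : DelGood Y) (hm : PvtrMesh (r / 16) (pvwSq 0 (3 * r)) Y) (c : (delbPl Y).toMap.Cyc) :
    ∃ o, PvgnFr (delbPl Y).toMap (pvplB (delbPl Y).toMap fun v => (v : ℂ) ∈ ball (0 : ℂ) r)
      {d | ((delbPl Y).toMap.src d : ℂ) ∈ ball (0 : ℂ) (2 * r) ∧ ((delbPl Y).toMap.tgt d : ℂ) ∈ ball (0 : ℂ) (2 * r) ∧ ((delbPl Y).toMap.apex d : ℂ) ∈ ball (0 : ℂ) (2 * r)} o := by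
  have hT := delb_plane_isSph hG
  obtain ⟨u0, hu0⟩ := pvae_site hr hm (a := 0) (by simp; positivity) (by simp; positivity)
  obtain ⟨u1, hu1⟩ := pvae_site hr hm (a := ((2 * r + r / 2 : ℝ) : ℂ)) (by rw [Complex.ofReal_re, abs_of_pos (by positivity)]) (by rw [Complex.ofReal_im, abs_zero]; positivity)
  obtain ⟨d0, hd0⟩ := pl_cyc_dart_at hT c u0
  obtain ⟨o, ho⟩ := pl_cyc_dart_at hT c u1
  have k0 : ‖((delbPl Y).toMap.src d0 : ℂ) - 0‖ < r := by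
    rw [hd0, ← norm_neg, neg_sub]
    linarith
  have k1 : 2 * r ≤ ‖((delbPl Y).toMap.src o : ℂ) - 0‖ := by
    rw [ho, sub_zero]
    have e : ‖((2 * r + r / 2 : ℝ) : ℂ)‖ ≤ ‖(u1 : ℂ)‖ + ‖((2 * r + r / 2 : ℝ) : ℂ) - u1‖ := by
      have := norm_add_le (u1 : ℂ) (((2 * r + r / 2 : ℝ) : ℂ) - u1)
      rwa [add_sub_cancel] at this
    rw [Complex.norm_real, Real.norm_of_nonneg (by positivity)] at e
    linarith
  have hF := pvgy_m_frame hG (z := 0) (ra := r) (rb := 2 * r) (by linarith) (pvae_sep hr hG hm) k0 k1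
  refine ⟨o, ?_⟩
  convert hF using 1
  · ext d
    simp only [pvplB, PvMap.Star, mem_ball, dist_eq_norm, mem_ofPred_eq]
  · ext d
    simp only [PvMap.Star, mem_ball, dist_eq_norm, mem_ofPred_eq, mem_compl_iff, not_or, not_le]

/-! ## 3. the target from a gate of record -/

/-- **the target of [ADM] at `(Y, s)`** from ONE gate of record and four joins from its feet -/
theorem pvae_CH_of_gate (hn : PvatNice Y) (hm : PvtrMesh (r / 16) (pvwSq 0 (3 * r)) Y) {s : Y → Bool}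
    (h : ∃ g : (delbPl Y).toMap.Gate s, PvzlGt (delbPl Y).toMap Subtype.val s ((pvkdP r).pg 0 1) g ∧ ∀ σ β, ∃ v : Y, (v : ℂ) ∈ (pvkdP r).Dr σ β ∧
      (delbPl Y).toMap.Join univ (pvldCol s {u | (u : ℂ) ∈ (pvkdP r).Ln σ β} β) (pvkdFoot g σ β) v) : PvkoCH (pvkdP r) Y s := by
  refine pvko_tg_intro (fun Y s => PvatNice Y ∧ PvtrMesh (r / 16) (pvwSq 0 (3 * r)) Y ∧
    ∃ g : (delbPl Y).toMap.Gate s, PvzlGt (delbPl Y).toMap Subtype.val s ((pvkdP r).pg 0 1) g ∧ ∀ σ β, ∃ v : Y, (v : ℂ) ∈ (pvkdP r).Dr σ β ∧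
      (delbPl Y).toMap.Join univ (pvldCol s {u | (u : ℂ) ∈ (pvkdP r).Ln σ β} β) (pvkdFoot g σ β) v) ?_ ⟨hn, hm, h⟩
  rintro η ⟨h1, h2, g, hg, hl⟩
  exact pvko_CH_of_pos (pvkdP r) h1 h2 g (by rw [← pvko_pg_id]; exact hg) hl

/-! ## 4. BLOCK D at the model -/

/-- **BLOCK D AT THE MODEL**: an explicit gate between the two round frames, through, banks in the tube, feet in the West / East rooms, four lanes from its feet ⟹ the target of [ADM] at `(Y, s)` -/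
theorem pvae_record (hr : 0 < r) (hn : PvatNice Y) (hm : PvtrMesh (r / 16) (pvwSq 0 (3 * r)) Y) {s : Y → Bool} (g₀ : (delbPl Y).toMap.Gate s)
    (h₀ : PvzlIn (delbPl Y).toMap Subtype.val (ball (0 : ℂ) r) (ball (0 : ℂ) (2 * r)) g₀.c) (hthru : g₀.Thru)
    (hbox : ∀ v, v ∈ g₀.bank ∨ v ∈ g₀.wbank → (v : ℂ) ∈ (pvkdP r).Tb)
    (hvm : (g₀.vm : ℂ) ∈ (pvkdP r).Zm) (hfm : ((delbPl Y).toMap.tgt g₀.aIn : ℂ) ∈ (pvkdP r).Zm) (hvp : (g₀.vp : ℂ) ∈ (pvkdP r).Zp) (hfp : ((delbPl Y).toMap.tgt g₀.aOut : ℂ) ∈ (pvkdP r).Zp)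
    (hlane : ∀ σ β, ∃ v : Y, (v : ℂ) ∈ (pvkdP r).Dr σ β ∧ (delbPl Y).toMap.Join univ (pvldCol s {u | (u : ℂ) ∈ (pvkdP r).Ln σ β} β) (pvkdFoot g₀ σ β) v) :
    PvkoCH (pvkdP r) Y s := by
  have hG := hn.good
  obtain ⟨o, hF⟩ := pvae_frame hr hG hm g₀.c
  refine pvae_CH_of_gate hn hm ?_
  rw [pvko_pg_id]
  exact pvzt_record (mk := Subtype.val) (p := ⟨ball 0 (pvkdP r).a, ball 0 (pvkdP r).b, (pvkdP r).Zm, (pvkdP r).Zp, (pvkdP r).Tb⟩) (delb_plane_isSph hG) (pvgy_m_simple Y) hF rfl (fun _ => Iff.rfl) g₀ h₀ hthru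
    (BW := {v | (v : ℂ) ∈ (pvkdP r).Zm}) (BE := {v | (v : ℂ) ∈ (pvkdP r).Zp})
    (fun u hu v hv => ⟨fun e => pvae_no_jump hr hG hm hu hv (Or.inl e), fun e => pvae_no_jump hr hG hm hu hv (Or.inr e)⟩)
    (fun v hv => ⟨hbox v hv, pvae_box (hbox v hv)⟩) hvm hfm hvp hfp (Ln := (pvkdP r).Ln) (Dr := (pvkdP r).Dr)
    (fun v hv => ⟨hv, fun β => pvae_Zm_Ln hr β hv⟩) (fun v hv => ⟨hv, fun β => pvae_Zp_Ln hr β hv⟩) (pvae_Ln_disj hr true true) (fun σ => pvae_Dr_off hr σ true) hlane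

/-! ## 5. BLOCKS C + D at the model: the field `out` of `PvkoNet` -/

/-- **THE FIELD `out`**: the links of the plug in a net on the plane map of `Y`, positions (`PvazLk.Pos` of 140 at the numbers of the plug of record), the two quads in the West / East rooms, the classes of the lanes in their rooms, the doors in the targets -/
theorem pvae_out (hr : 0 < r) (hn : PvatNice Y) (hm : PvtrMesh (r / 16) (pvwSq 0 (3 * r)) Y) {ι : Type} [Fintype ι] {I : PvamIn (delbPl Y).toMap ι} {N : PvamNet I} (K : PvazLk N) {μ : ℝ}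
    (P : K.Pos Subtype.val 0 r (2 * r) μ (-(2 * r)) (2 * r) (-(r / 2)) (r / 2))
    (hVm : ∀ v ∈ K.Vm, (v : ℂ) ∈ (pvkdP r).Zm) (hVp : ∀ v ∈ K.Vp, (v : ℂ) ∈ (pvkdP r).Zp)
    (kpb : ∀ v ∈ K.dp.1.K ∪ K.dp.2.K, (v : ℂ) ∈ (pvkdP r).Ln true true) (zpb : ∀ v ∈ K.dp.2.Z, (v : ℂ) ∈ (pvkdP r).Dr true true)
    (kpw : ∀ v ∈ K.C4, (v : ℂ) ∈ (pvkdP r).Ln true false) (zpw : ∀ v ∈ K.Zp, (v : ℂ) ∈ (pvkdP r).Dr true false)
    (kmb : ∀ v ∈ K.dm.1.K ∪ K.dm.2.K, (v : ℂ) ∈ (pvkdP r).Ln false true) (zmb : ∀ v ∈ K.dm.2.Z, (v : ℂ) ∈ (pvkdP r).Dr false true)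
    (kmw : ∀ v ∈ K.C3, (v : ℂ) ∈ (pvkdP r).Ln false false) (zmw : ∀ v ∈ K.Zm, (v : ℂ) ∈ (pvkdP r).Dr false false)
    {s : Y → Bool} (h : N.Out s) : PvkoCH (pvkdP r) Y s := by
  classical
  obtain ⟨g, -, h₀, hthru, a1, a2, a3, a4, hbox, ⟨t1, ht1, j1⟩, ⟨t2, ht2, j2⟩, ⟨t3, ht3, j3⟩, ⟨t4, ht4, j4⟩⟩ := pvaz_main K (pvaw_geo_del hn.good) P h
  have mono : ∀ {A : Set Y} {R : Set ℂ} {β : Bool}, (∀ v ∈ A, (v : ℂ) ∈ R) → pvldCol s A β ⊆ pvldCol s {u | (u : ℂ) ∈ R} β := fun hA v hv => ⟨hA v hv.1, hv.2⟩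
  refine pvae_record hr hn hm g h₀ hthru (fun v hv => hbox v hv) (hVm _ a1) (hVm _ a2) (hVp _ a3) (hVp _ a4) fun σ β => ?_
  cases σ <;> cases β
  · exact ⟨t4, zmw _ ht4, pl_hx_join_mono Subset.rfl (mono fun v hv => hv.elim (fun h => pvae_Zm_Ln hr _ (hVm v h)) (kmw v)) j4⟩
  · exact ⟨t3, zmb _ ht3, pl_hx_join_mono Subset.rfl (mono fun v hv => hv.elim (fun h => pvae_Zm_Ln hr _ (hVm v h)) (kmb v)) j3⟩
  · exact ⟨t2, zpw _ ht2, pl_hx_join_mono Subset.rfl (mono fun v hv => hv.elim (fun h => pvae_Zp_Ln hr _ (hVp v h)) (kpw v)) j2⟩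
  · exact ⟨t1, zpb _ ht1, pl_hx_join_mono Subset.rfl (mono fun v hv => hv.elim (fun h => pvae_Zp_Ln hr _ (hVp v h)) (kpb v)) j1⟩

/-- the same on `delMap h` (the map of `Tr/QuadI`, `Tr/QuadX`, `Tr/QuadY`, `Tr/QuadD`) -/
theorem pvae_out_del (hr : 0 < r) (hn : PvatNice Y) (hm : PvtrMesh (r / 16) (pvwSq 0 (3 * r)) Y) (hG : DelGood Y) {ι : Type} [Fintype ι] {I : PvamIn (delMap hG) ι} {N : PvamNet I} (K : PvazLk N) {μ : ℝ}
    (P : K.Pos Subtype.val 0 r (2 * r) μ (-(2 * r)) (2 * r) (-(r / 2)) (r / 2))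
    (hVm : ∀ v ∈ K.Vm, (v : ℂ) ∈ (pvkdP r).Zm) (hVp : ∀ v ∈ K.Vp, (v : ℂ) ∈ (pvkdP r).Zp)
    (kpb : ∀ v ∈ K.dp.1.K ∪ K.dp.2.K, (v : ℂ) ∈ (pvkdP r).Ln true true) (zpb : ∀ v ∈ K.dp.2.Z, (v : ℂ) ∈ (pvkdP r).Dr true true)
    (kpw : ∀ v ∈ K.C4, (v : ℂ) ∈ (pvkdP r).Ln true false) (zpw : ∀ v ∈ K.Zp, (v : ℂ) ∈ (pvkdP r).Dr true false)
    (kmb : ∀ v ∈ K.dm.1.K ∪ K.dm.2.K, (v : ℂ) ∈ (pvkdP r).Ln false true) (zmb : ∀ v ∈ K.dm.2.Z, (v : ℂ) ∈ (pvkdP r).Dr false true)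
    (kmw : ∀ v ∈ K.C3, (v : ℂ) ∈ (pvkdP r).Ln false false) (zmw : ∀ v ∈ K.Zm, (v : ℂ) ∈ (pvkdP r).Dr false false)
    {s : Y → Bool} (h : N.Out s) : PvkoCH (pvkdP r) Y s := by
  have key : ∀ Q : PlTri ↥Y, Q = delbPl Y → ∀ {I : PvamIn Q.toMap ι} {N : PvamNet I} (K : PvazLk N), K.Pos Subtype.val 0 r (2 * r) μ (-(2 * r)) (2 * r) (-(r / 2)) (r / 2) →
      (∀ v ∈ K.Vm, (v : ℂ) ∈ (pvkdP r).Zm) → (∀ v ∈ K.Vp, (v : ℂ) ∈ (pvkdP r).Zp) →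
      (∀ v ∈ K.dp.1.K ∪ K.dp.2.K, (v : ℂ) ∈ (pvkdP r).Ln true true) → (∀ v ∈ K.dp.2.Z, (v : ℂ) ∈ (pvkdP r).Dr true true) →
      (∀ v ∈ K.C4, (v : ℂ) ∈ (pvkdP r).Ln true false) → (∀ v ∈ K.Zp, (v : ℂ) ∈ (pvkdP r).Dr true false) →
      (∀ v ∈ K.dm.1.K ∪ K.dm.2.K, (v : ℂ) ∈ (pvkdP r).Ln false true) → (∀ v ∈ K.dm.2.Z, (v : ℂ) ∈ (pvkdP r).Dr false true) →
      (∀ v ∈ K.C3, (v : ℂ) ∈ (pvkdP r).Ln false false) → (∀ v ∈ K.Zm, (v : ℂ) ∈ (pvkdP r).Dr false false) → N.Out s → PvkoCH (pvkdP r) Y s := by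
    rintro Q rfl I N K P a1 a2 a3 a4 a5 a6 a7 a8 a9 a10 h
    exact pvae_out hr hn hm K P a1 a2 a3 a4 a5 a6 a7 a8 a9 a10 h
  exact key (delPl hG) (delb_pl_eq hG).symm K P hVm hVp kpb zpb kpw zpw kmb zmb kmw zmw h

end Claimed.Agent.R289
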