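import Claimed.Agent.R289.Tr.AdmIC
import Claimed.Agent.R289.Adm.RecI

/-!
# Row 289 (S0537, Cardy for Poisson-Voronoi), THE WALL, ADMISSION, file Adm/RecN : THE ROOMS OF THE PLUG OF RECORD AT THE TABLE OF `Tr/AdmIC`      (helper224, ruling B-2 of 259; prefix `pvae_yb_`)

The ten inclusions asked by `pvae_out_del` (`Adm/RecI`) at the net `G.N` of 262 (`Tr/AdmIC`), stated on the raw objects (no `PvazLk` needed):
`pvae_yb_VS` (closed discs of the quads in the West / East rooms), `pvae_yb_kb` (classes of the black door lanes), `pvae_yb_kw` (classes of the white door lanes);   the targets `pvybZ Y σ β` are the targets of the plug by definition (`pvae_yb_Z`).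
-/

set_option autoImplicit false

namespace Claimed.Agent.R289

open Set Metric Claims.C0465

variable {Y : Set ℂ} (G : PvybGeo Y)

/-- the closed discs of the quads lie in the West / East rooms -/
theorem pvae_yb_VS : (∀ v ∈ G.VS false, (v : ℂ) ∈ (pvkdP (1 / 16)).Zm) ∧ ∀ v ∈ G.VS true, (v : ℂ) ∈ (pvkdP (1 / 16)).Zp := by
  constructor
  · intro v hv
    obtain ⟨a1, a2, a3, a4⟩ := (G.ok false).out v hv
    simp only [pvybQd, pvybMk, PvybRc.mir, pvybE, pvybρ] at a1 a2 a3 a4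
    norm_num at a1 a2 a3 a4
    refine ⟨?_, ?_, ?_, ?_⟩ <;> norm_num <;> linarith
  · intro v hv
    obtain ⟨a1, a2, a3, a4⟩ := (G.ok true).out v hv
    simp only [pvybQd, pvybMk, PvybRc.mir, pvybE, pvybρ] at a1 a2 a3 a4
    norm_num at a1 a2 a3 a4
    refine ⟨?_, ?_, ?_, ?_⟩ <;> norm_num <;> linarith

include G in
/-- the classes of the black door lanes lie in their rooms -/
theorem pvae_yb_kb (σ : Bool) : ∀ v ∈ pvybM Y (pvybVo σ) ∪ pvybM Y (pvybBd σ), (v : ℂ) ∈ (pvkdP (1 / 16)).Ln σ true := by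
  rintro v (hv | hv)
  · obtain ⟨⟨a1, a2, a3, a4⟩, -⟩ := pvyb_M_pos G (R := pvybVo σ) (by cases σ <;> simp [pvybLRw, pvybLRb, pvybLKw, pvybLKb]) hv
    cases σ
    · simp only [pvybVo, pvybMk, PvybRc.mir, pvybE, pvybρ] at a1 a2 a3 a4
      norm_num at a1 a2 a3 a4
      refine Or.inl ⟨?_, ?_, ?_, ?_⟩ <;> norm_num <;> linarith
    · simp only [pvybVo, pvybMk, PvybRc.mir, pvybE, pvybρ] at a1 a2 a3 a4
      norm_num at a1 a2 a3 a4
      refine Or.inl ⟨?_, ?_, ?_, ?_⟩ <;> norm_num <;> linarith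
  · obtain ⟨⟨a1, a2, a3, a4⟩, -⟩ := pvyb_M_pos G (R := pvybBd σ) (by cases σ <;> simp [pvybLRw, pvybLRb, pvybLKw, pvybLKb]) hv
    cases σ
    · simp only [pvybBd, pvybMk, PvybRc.mir, pvybE, pvybρ] at a1 a2 a3 a4
      norm_num at a1 a2 a3 a4
      rcases le_total (v : ℂ).re (-(1 / 8)) with hx | hx
      · refine Or.inr ⟨?_, ?_, ?_, ?_⟩ <;> norm_num <;> linarith
      · refine Or.inl ⟨?_, ?_, ?_, ?_⟩ <;> norm_num <;> linarith
    · simp only [pvybBd, pvybMk, PvybRc.mir, pvybE, pvybρ] at a1 a2 a3 a4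
      norm_num at a1 a2 a3 a4
      rcases le_total (v : ℂ).re (1 / 8) with hx | hx
      · refine Or.inl ⟨?_, ?_, ?_, ?_⟩ <;> norm_num <;> linarith
      · refine Or.inr ⟨?_, ?_, ?_, ?_⟩ <;> norm_num <;> linarith

/-- the classes of the white door lanes lie in their rooms -/
theorem pvae_yb_kw (σ : Bool) : ∀ v ∈ G.Kwd σ, (v : ℂ) ∈ (pvkdP (1 / 16)).Ln σ false := by
  rintro v ((hv | hv) | hv)
  · cases σ
    · exact pvae_Zm_Ln (by norm_num) false ((pvae_yb_VS G).1 v hv)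
    · exact pvae_Zp_Ln (by norm_num) false ((pvae_yb_VS G).2 v hv)
  · obtain ⟨⟨a1, a2, a3, a4⟩, -⟩ := pvyb_M_pos G (R := pvybWc σ) (by cases σ <;> simp [pvybLRw, pvybLRb, pvybLKw, pvybLKb]) hv
    cases σ
    · simp only [pvybWc, pvybMk, PvybRc.mir, pvybE, pvybρ] at a1 a2 a3 a4
      norm_num at a1 a2 a3 a4
      refine Or.inl ⟨?_, ?_, ?_, ?_⟩ <;> norm_num <;> linarith
    · simp only [pvybWc, pvybMk, PvybRc.mir, pvybE, pvybρ] at a1 a2 a3 a4
      norm_num at a1 a2 a3 a4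
      refine Or.inl ⟨?_, ?_, ?_, ?_⟩ <;> norm_num <;> linarith
  · obtain ⟨⟨a1, a2, a3, a4⟩, -⟩ := pvyb_M_pos G (R := pvybWd σ) (by cases σ <;> simp [pvybLRw, pvybLRb, pvybLKw, pvybLKb]) hv
    cases σ
    · simp only [pvybWd, pvybMk, PvybRc.mir, pvybE, pvybρ] at a1 a2 a3 a4
      norm_num at a1 a2 a3 a4
      rcases le_total (v : ℂ).re (-(1 / 8)) with hx | hx
      · refine Or.inr ⟨?_, ?_, ?_, ?_⟩ <;> norm_num <;> linarith
      · refine Or.inl ⟨?_, ?_, ?_, ?_⟩ <;> norm_num <;> linarith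
    · simp only [pvybWd, pvybMk, PvybRc.mir, pvybE, pvybρ] at a1 a2 a3 a4
      norm_num at a1 a2 a3 a4
      rcases le_total (v : ℂ).re (1 / 8) with hx | hx
      · refine Or.inl ⟨?_, ?_, ?_, ?_⟩ <;> norm_num <;> linarith
      · refine Or.inr ⟨?_, ?_, ?_, ?_⟩ <;> norm_num <;> linarith

/-- the targets -/
theorem pvae_yb_Z (σ β : Bool) : ∀ v ∈ pvybZ Y σ β, (v : ℂ) ∈ (pvkdP (1 / 16)).Dr σ β := fun _ hv => hv

end Claimed.Agent.R289
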