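import Claimed.Agent.R289.Arm.Law

/-!
# Row 289 (S0537, Cardy for Poisson-Voronoi), box ADMISSION, file Adm/Res : A1 RESAMPLING IDENTITY, A2 JENSEN INSTEAD OF QBX      (owner helper224; prefix `pvae_`)

Blueprint `origin/helper224:notes/R289/adm_224.md` (P1, sec. 3), split of 140 (10:22Z): A1 + A2 are consumed by `Tr/Adm.lean` (127).      NO planarity, NO graph.

sec. 1 (finite, `pvaP`)      `pvae_cyl` : `P(K) P(C) ≤ P(K ∧ G)` if `S` is a stopping set, `K` is `S`-measurable and `K ω`, `C ω₂` force `G (ω on S ω, ω₂ off S ω)`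
sec. 2 (`colLaw V`, `V` arbitrary)      **`pvae_res`** the same under `colLaw V`, NO measurability of `G`;      `pvae_indep`, `pvae_indep_le` (disjoint finite regions);      **`pvae_four`** four classes
sec. 3 (any probability space)      `pvae_pow_lintegral` `(∫ f) ^ k ≤ ∫ f ^ k`;      `pvae_jensen` `(∫ f) ^ card ≤ ∫ ∏ F i` if `f ≤ F i`
sec. 4 (the row)      `pvae_Qc_flip_le`, `pvae_Qc_lintegral_le`, **`pvae_anneal`** : `(pvP ε Ψ) ^ card ≤ pvP ε E + pvGeo ε Bad`;      **`pvae_quench`** (the quenched product bound from the exploration),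
       **`pvae_main`** : `(pvP ε Ψ) ^ 4 ≤ pvP ε E + pvGeo ε Bad`  (`Ψ` = ALL patterns of the four classes in ONE colour: annealed RSW + FKG, no quenched box crossing)
-/

set_option autoImplicit false
set_option linter.unusedSectionVars false
set_option linter.unusedVariables false

namespace Claimed.Agent.R289

open MeasureTheory Finset
open Claims.C0465
open scoped ENNReal

/-! ## 1. finite form -/

section fin

variable {V : Type} [DecidableEq V]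

/-- **RESAMPLING / CYLINDER**: explore `S`, keep the `S`-measurable event `K`, paste an independent copy off `S` -/
theorem pvae_cyl {S : (V → Bool) → Finset V} (hS : PvaStop S) {K : (V → Bool) → Prop} (hK : PvaMeas S K) (A : Finset V) (ξ : V → Bool)
    {C G : (V → Bool) → Prop} (h : ∀ ω ω₂, PvaCfg A ξ ω → PvaCfg A ξ ω₂ → K ω → C ω₂ → G (pvaMix (S ω) ω ω₂)) :
    pvaP A ξ C * pvaP A ξ K ≤ pvaP A ξ (fun ω => K ω ∧ G ω) :=
  pva_smarkov_ge hS hK A ξ fun ω hω hk => pva_P_fresh (S ω) hω fun ω₂ h2 hc => h ω ω₂ hω h2 hk hc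

/-- a stopping set inside `A` reads `A` only -/
theorem pvae_stop_loc {S : (V → Bool) → Finset V} {A : Finset V} (hSA : ∀ ω, S ω ⊆ A) {β : Type} {F : (V → Bool) → β} (hF : PvaMeas S F) :
    PvalLoc A F := fun ω ω' h => (hF ω ω' fun v hv => (h v (hSA ω hv)).symm).symm

end fin

/-! ## 2. under `colLaw V` -/

section law

variable {V : Type} [DecidableEq V]

/-- **A1, RESAMPLING IDENTITY under `colLaw V`** (lower bound form).      `G` is ANY property (no measurability, it may read everything). -/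
theorem pvae_res {S : (V → Bool) → Finset V} (hS : PvaStop S) {A : Finset V} (hSA : ∀ ω, S ω ⊆ A) {K C G : (V → Bool) → Prop} (hK : PvaMeas S K)
    (hC : PvalLoc A C) (h : ∀ ω ω₂, K ω → C ω₂ → G (pvaMix (S ω) ω ω₂)) :
    colLaw V {ω | K ω} * colLaw V {ω | C ω} ≤ colLaw V {ω | K ω ∧ G ω} := by
  have hKl : PvalLoc A K := pvae_stop_loc hSA hK
  have hSl : PvalLoc A S := pvae_stop_loc hSA hS
  -- the local witness
  let G' : (V → Bool) → Prop := fun ω => ∃ ω₂, C ω₂ ∧ ∀ v ∈ A, v ∉ S ω → ω v = ω₂ v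
  have hG'l : PvalLoc A G' := by
    intro ω ω' hh
    have e : S ω = S ω' := hSl ω ω' hh
    refine propext ⟨?_, ?_⟩
    · rintro ⟨ω₂, hc, h2⟩
      exact ⟨ω₂, hc, fun v hv hvS => (hh v hv).symm.trans (h2 v hv (e ▸ hvS))⟩
    · rintro ⟨ω₂, hc, h2⟩
      exact ⟨ω₂, hc, fun v hv hvS => (hh v hv).trans (h2 v hv (e ▸ hvS))⟩
  have hKG'l : PvalLoc A (fun ω => K ω ∧ G' ω) := fun ω ω' hh => by
    show (K ω ∧ G' ω) = (K ω' ∧ G' ω')
    rw [hKl ω ω' hh, hG'l ω ω' hh]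
  have hsub : {ω | K ω ∧ G' ω} ⊆ {ω | K ω ∧ G ω} := by
    rintro ω ⟨hk, ω₂, hc, h2⟩
    refine ⟨hk, ?_⟩
    -- modify the copy off `A`
    have hc' : C (pvaMix A ω₂ ω) := by
      rw [← hC ω₂ (pvaMix A ω₂ ω) fun v hv => (pva_mix_in hv).symm]
      exact hc
    have e : pvaMix (S ω) ω (pvaMix A ω₂ ω) = ω := by
      funext v
      by_cases hv : v ∈ S ω
      · rw [pva_mix_in hv]
      · rw [pva_mix_out hv]
        by_cases hA : v ∈ A
        · rw [pva_mix_in hA, h2 v hA hv]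
        · rw [pva_mix_out hA]
    have := h ω _ hk hc'
    rwa [e] at this
  refine le_trans ?_ (measure_mono hsub)
  let ξ : V → Bool := fun _ => false
  rw [pval_measure hKl ξ, pval_measure hC ξ, pval_measure hKG'l ξ, ← ENNReal.ofReal_mul (pva_P_nonneg _ _ _), mul_comm]
  refine ENNReal.ofReal_le_ofReal (pvae_cyl hS hK A ξ fun ω ω₂ _ _ hk hc => ?_)
  have e : S (pvaMix (S ω) ω ω₂) = S ω := hS ω _ fun v hv => pva_mix_in hv
  refine ⟨ω₂, hc, fun v _ hv => ?_⟩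
  rw [e] at hv
  exact pva_mix_out hv

/-- events which read disjoint finite regions are independent -/
theorem pvae_indep {R₁ R₂ : Finset V} (hd : Disjoint R₁ R₂) {K₁ K₂ : (V → Bool) → Prop} (h₁ : PvalLoc R₁ K₁) (h₂ : PvalLoc R₂ K₂) :
    colLaw V {ω | K₁ ω ∧ K₂ ω} = colLaw V {ω | K₁ ω} * colLaw V {ω | K₂ ω} := by
  classical
  let ξ : V → Bool := fun _ => false
  have h₁' : PvalLoc (R₁ ∪ R₂) K₁ := pval_loc_mono subset_union_left h₁
  have h₂' : PvalLoc (R₁ ∪ R₂) K₂ := pval_loc_mono subset_union_right h₂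
  have h₁₂ : PvalLoc (R₁ ∪ R₂) (fun ω => K₁ ω ∧ K₂ ω) := fun ω ω' hh => by
    show (K₁ ω ∧ K₂ ω) = (K₁ ω' ∧ K₂ ω')
    rw [h₁' ω ω' hh, h₂' ω ω' hh]
  rw [pval_measure h₁₂ ξ, pval_measure h₁' ξ, pval_measure h₂' ξ, ← ENNReal.ofReal_mul (pva_P_nonneg _ _ _)]
  congr 1
  rw [pva_P_and_eq]
  exact pva_E_mul subset_union_right hd (pva_dep_ind (pval_loc_dep h₁ _ ξ)) (pva_dep_ind (pval_loc_dep h₂ _ ξ))

theorem pvae_indep_le {R₁ R₂ : Finset V} (hd : Disjoint R₁ R₂) {K₁ K₂ K : (V → Bool) → Prop} (h₁ : PvalLoc R₁ K₁) (h₂ : PvalLoc R₂ K₂)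
    (h : ∀ ω, K₁ ω → K₂ ω → K ω) : colLaw V {ω | K₁ ω} * colLaw V {ω | K₂ ω} ≤ colLaw V {ω | K ω} := by
  rw [← pvae_indep hd h₁ h₂]
  exact measure_mono fun ω hω => h ω hω.1 hω.2

/-- **FOUR CLASSES**: `K₁, K₂` (true colours, disjoint regions) force the explored event `K`; `C₁, C₂` (colours of the copy, disjoint regions) -/
theorem pvae_four {S : (V → Bool) → Finset V} (hS : PvaStop S) {A R₁ R₂ R₃ R₄ : Finset V} (hSA : ∀ ω, S ω ⊆ A) (h12 : Disjoint R₁ R₂) (h34 : Disjoint R₃ R₄)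
    (hR₃ : R₃ ⊆ A) (hR₄ : R₄ ⊆ A) {K₁ K₂ C₁ C₂ K G : (V → Bool) → Prop} (h₁ : PvalLoc R₁ K₁) (h₂ : PvalLoc R₂ K₂) (h₃ : PvalLoc R₃ C₁) (h₄ : PvalLoc R₄ C₂)
    (hK : PvaMeas S K) (h0 : ∀ ω, K₁ ω → K₂ ω → K ω) (h : ∀ ω ω₂, K ω → C₁ ω₂ → C₂ ω₂ → G (pvaMix (S ω) ω ω₂)) :
    colLaw V {ω | K₁ ω} * colLaw V {ω | K₂ ω} * (colLaw V {ω | C₁ ω} * colLaw V {ω | C₂ ω}) ≤ colLaw V {ω | G ω} := by
  have hC : PvalLoc A (fun ω => C₁ ω ∧ C₂ ω) := fun ω ω' hh => by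
    show (C₁ ω ∧ C₂ ω) = (C₁ ω' ∧ C₂ ω')
    rw [pval_loc_mono hR₃ h₃ ω ω' hh, pval_loc_mono hR₄ h₄ ω ω' hh]
  calc colLaw V {ω | K₁ ω} * colLaw V {ω | K₂ ω} * (colLaw V {ω | C₁ ω} * colLaw V {ω | C₂ ω})
      ≤ colLaw V {ω | K ω} * colLaw V {ω | C₁ ω ∧ C₂ ω} := by
        rw [pvae_indep h34 h₃ h₄]
        exact mul_le_mul' (pvae_indep_le h12 h₁ h₂ h0) le_rfl
    _ ≤ colLaw V {ω | K ω ∧ G ω} := pvae_res hS hSA hK hC fun ω ω₂ hk hc => h ω ω₂ hk hc.1 hc.2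
    _ ≤ colLaw V {ω | G ω} := measure_mono fun ω hω => hω.2

end law

/-! ## 3. Jensen -/

section jensen

variable {α : Type*} [MeasurableSpace α]

/-- Jensen for powers -/
theorem pvae_pow_lintegral (μ : Measure α) [IsProbabilityMeasure μ] {f : α → ℝ≥0∞} (hf : Measurable f) (h1 : ∀ a, f a ≤ 1) (k : ℕ) :
    (∫⁻ a, f a ∂μ) ^ k ≤ ∫⁻ a, f a ^ k ∂μ := by
  have hF : Measurable fun a => (f a).toReal := hf.ennreal_toReal
  have hF0 : ∀ a, 0 ≤ (f a).toReal := fun a => ENNReal.toReal_nonneg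
  have hF1 : ∀ a, (f a).toReal ≤ 1 := fun a => ENNReal.toReal_le_of_le_ofReal zero_le_one (by simpa using h1 a)
  have hne : ∀ a, f a ≠ ∞ := fun a => ne_top_of_le_ne_top ENNReal.one_ne_top (h1 a)
  have hi : Integrable (fun a => (f a).toReal) μ :=
    Integrable.of_bound hF.aestronglyMeasurable 1 (Filter.Eventually.of_forall fun a => by rw [Real.norm_of_nonneg (hF0 a)]; exact hF1 a)
  have hik : Integrable (fun a => (f a).toReal ^ k) μ :=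
    Integrable.of_bound (hF.pow_const k).aestronglyMeasurable 1
      (Filter.Eventually.of_forall fun a => by rw [Real.norm_of_nonneg (pow_nonneg (hF0 a) k)]; exact pow_le_one₀ (hF0 a) (hF1 a))
  have hJ : (∫ a, (f a).toReal ∂μ) ^ k ≤ ∫ a, (f a).toReal ^ k ∂μ :=
    (convexOn_pow k).map_integral_le (μ := μ) (f := fun a => (f a).toReal) (continuous_pow k).continuousOn isClosed_Ici
      (Filter.Eventually.of_forall fun a => hF0 a) hi hik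
  have e1 : ∫⁻ a, f a ∂μ = ENNReal.ofReal (∫ a, (f a).toReal ∂μ) := by
    rw [ofReal_integral_eq_lintegral_ofReal hi (Filter.Eventually.of_forall hF0)]
    exact lintegral_congr fun a => (ENNReal.ofReal_toReal (hne a)).symm
  have e2 : ∫⁻ a, f a ^ k ∂μ = ENNReal.ofReal (∫ a, (f a).toReal ^ k ∂μ) := by
    rw [ofReal_integral_eq_lintegral_ofReal hik (Filter.Eventually.of_forall fun a => pow_nonneg (hF0 a) k)]
    refine lintegral_congr fun a => ?_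
    rw [ENNReal.ofReal_pow (hF0 a), ENNReal.ofReal_toReal (hne a)]
  rw [e1, e2, ← ENNReal.ofReal_pow (integral_nonneg hF0)]
  exact ENNReal.ofReal_le_ofReal hJ

/-- **A2, JENSEN**: a common minorant `f` of the factors -/
theorem pvae_jensen (μ : Measure α) [IsProbabilityMeasure μ] {ι : Type*} (s : Finset ι) {f : α → ℝ≥0∞} (hf : Measurable f) (h1 : ∀ a, f a ≤ 1)
    (F : ι → α → ℝ≥0∞) (h : ∀ i ∈ s, ∀ a, f a ≤ F i a) : (∫⁻ a, f a ∂μ) ^ s.card ≤ ∫⁻ a, ∏ i ∈ s, F i a ∂μ := by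
  refine (pvae_pow_lintegral μ hf h1 s.card).trans (lintegral_mono fun a => ?_)
  rw [← prod_const]
  exact prod_le_prod' fun i hi => h i hi a

end jensen

/-! ## 4. the row -/

theorem pvae_Qc_flip_le {Ψ 𝒜 : Set (Conf PvPt)} (h : ∀ η ∈ Ψ, cfFlip η ∈ 𝒜) (g : PvGeoT) : pvQc Ψ g ≤ pvQc 𝒜 g := by
  rw [← pvqu_Qc_flip 𝒜 g]
  exact pvqu_Qc_mono h g

theorem pvae_Qc_lintegral_le (ε : ℝ) (E : Set (Conf PvPt)) : ∫⁻ g, pvQc E g ∂(pvGeo ε) ≤ pvP ε E :=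
  (pvqu_Q_lintegral_le ε _).trans (Measure.le_map_apply measurable_pvConf.aemeasurable E)

/-- **ANNEALING BY JENSEN**: off a bad set of geometries the quenched probability of `E` dominates the product of the quenched probabilities of the classes,
each of which dominates the quenched probability of ONE measurable event `Ψ` -/
theorem pvae_anneal (ε : ℝ) {ι : Type*} (s : Finset ι) (𝒜 : ι → Set (Conf PvPt)) {Ψ : Set (Conf PvPt)} (hΨ : MeasurableSet Ψ) (E : Set (Conf PvPt))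
    (Bad : Set PvGeoT) (h1 : ∀ i ∈ s, ∀ g, pvQc Ψ g ≤ pvQc (𝒜 i) g) (h2 : ∀ g, g ∉ Bad → ∏ i ∈ s, pvQc (𝒜 i) g ≤ pvQc E g) :
    pvP ε Ψ ^ s.card ≤ pvP ε E + pvGeo ε Bad := by
  have hB : MeasurableSet (toMeasurable (pvGeo ε) Bad) := measurableSet_toMeasurable _ _
  calc pvP ε Ψ ^ s.card = (∫⁻ g, pvQc Ψ g ∂(pvGeo ε)) ^ s.card := by rw [pvqu_Qc_lintegral ε hΨ]
    _ ≤ ∫⁻ g, ∏ i ∈ s, pvQc (𝒜 i) g ∂(pvGeo ε) := pvae_jensen _ s (pvqu_Qc_meas hΨ) (pvqu_Qc_le_one Ψ) _ h1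
    _ ≤ ∫⁻ g, (pvQc E g + (toMeasurable (pvGeo ε) Bad).indicator 1 g) ∂(pvGeo ε) := by
        refine lintegral_mono fun g => ?_
        by_cases hg : g ∈ Bad
        · have hg' : g ∈ toMeasurable (pvGeo ε) Bad := subset_toMeasurable _ _ hg
          rw [Set.indicator_of_mem hg']
          refine le_trans ?_ le_add_self
          exact prod_le_one' fun i _ => pvqu_Qc_le_one _ g
        · exact (h2 g hg).trans le_self_add
    _ = ∫⁻ g, pvQc E g ∂(pvGeo ε) + pvGeo ε Bad := by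
        rw [lintegral_add_right _ (measurable_one.indicator hB), lintegral_indicator_one hB, measure_toMeasurable]
    _ ≤ pvP ε E + pvGeo ε Bad := add_le_add (pvae_Qc_lintegral_le ε E) le_rfl

/-- **THE QUENCHED PRODUCT BOUND** at a geometry `g`: colourings `c : PvIx → Bool` of the indices -/
theorem pvae_quench (g : PvGeoT) {S : PvColT → Finset PvIx} (hS : PvaStop S) {A R₁ R₂ R₃ R₄ : Finset PvIx} (hSA : ∀ c, S c ⊆ A) (h12 : Disjoint R₁ R₂)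
    (h34 : Disjoint R₃ R₄) (hR₃ : R₃ ⊆ A) (hR₄ : R₄ ⊆ A) {𝒜₁ 𝒜₂ 𝒜₃ 𝒜₄ E : Set (Conf PvPt)}
    (h₁ : PvalLoc R₁ fun c => pvConf (pvMerge (g, c)) ∈ 𝒜₁) (h₂ : PvalLoc R₂ fun c => pvConf (pvMerge (g, c)) ∈ 𝒜₂)
    (h₃ : PvalLoc R₃ fun c => pvConf (pvMerge (g, c)) ∈ 𝒜₃) (h₄ : PvalLoc R₄ fun c => pvConf (pvMerge (g, c)) ∈ 𝒜₄)
    {K : PvColT → Prop} (hK : PvaMeas S K) (h0 : ∀ c, pvConf (pvMerge (g, c)) ∈ 𝒜₁ → pvConf (pvMerge (g, c)) ∈ 𝒜₂ → K c)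
    (h : ∀ c c₂, K c → pvConf (pvMerge (g, c₂)) ∈ 𝒜₃ → pvConf (pvMerge (g, c₂)) ∈ 𝒜₄ → pvConf (pvMerge (g, pvaMix (S c) c c₂)) ∈ E) :
    pvQc 𝒜₁ g * pvQc 𝒜₂ g * (pvQc 𝒜₃ g * pvQc 𝒜₄ g) ≤ pvQc E g :=
  pvae_four (V := PvIx) hS hSA h12 h34 hR₃ hR₄ h₁ h₂ h₃ h₄ hK h0 h

/-- **A1 + A2**: `Ψ` = all patterns of the four classes in one colour (classes 1, 3 in the colour of `Ψ`, classes 2, 4 in the other colour) -/
theorem pvae_main (ε : ℝ) {Ψ 𝒜₁ 𝒜₂ 𝒜₃ 𝒜₄ : Set (Conf PvPt)} (hΨ : MeasurableSet Ψ) (E : Set (Conf PvPt)) (Bad : Set PvGeoT)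
    (h₁ : Ψ ⊆ 𝒜₁) (h₂ : ∀ η ∈ Ψ, cfFlip η ∈ 𝒜₂) (h₃ : Ψ ⊆ 𝒜₃) (h₄ : ∀ η ∈ Ψ, cfFlip η ∈ 𝒜₄)
    (h : ∀ g, g ∉ Bad → pvQc 𝒜₁ g * pvQc 𝒜₂ g * (pvQc 𝒜₃ g * pvQc 𝒜₄ g) ≤ pvQc E g) :
    pvP ε Ψ ^ 4 ≤ pvP ε E + pvGeo ε Bad := by
  have := pvae_anneal ε (Finset.univ : Finset (Fin 4)) ![𝒜₁, 𝒜₂, 𝒜₃, 𝒜₄] hΨ E Bad ?_ ?_
  · simpa using this
  · intro i _ g
    fin_cases i
    · exact pvqu_Qc_mono h₁ g
    · exact pvae_Qc_flip_le h₂ g
    · exact pvqu_Qc_mono h₃ g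
    · exact pvae_Qc_flip_le h₄ g
  · intro g hg
    refine le_trans (le_of_eq ?_) (h g hg)
    simp [Fin.prod_univ_four, mul_assoc]

end Claimed.Agent.R289
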