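import Claimed.Agent.R289.Adm.Res
import Claimed.Agent.R289.Del.Seam

/-!
# Row 289 (S0537, Cardy for Poisson-Voronoi), box ADMISSION, file Adm/Seam : THE PROBABILITY HALF OF THE INSTANCE      (owner helper224; prefix `pvae_`)

FROM  a finite inequality `pvaP A ξ F₁ * pvaP A ξ F₂ * (pvaP A ξ F₃ * pvaP A ξ F₄) ≤ pvaP A ξ G` (all backgrounds `ξ`) for the colourings `↥(pvgSites g) → Bool` of the vertices of `delMap h` at every geometry `g ∉ Bad`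
      (= `pvam_net_prob` of `Tr/Adm.lean`, 127)
TO    `pvP ε Ψ ^ 4 ≤ pvP ε E + pvGeo ε Bad`,   `Ψ` = ONE measurable event (all the patterns of the four classes in one colour): annealed RSW + FKG only, NO quenched box crossing, NO measurability or locality of `G`, `E`, `Bad`.

sec. 1  `pvae_P_pull` (pull-back of `pvaP` along an injection of the vertices into the indices), `pvae_le_law` (a lower bound for EVERY background gives the lower bound under `colLaw`, NO measurability), `pvae_le_pull`, `pvae_pull_eq`, **`pvae_pull_four`**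
sec. 2  `pvaeCol g c` the colouring of the sites of `g`, **`pvae_col_cast`** : `P (cfSites η) (dlsCol η) ↔ P (pvgSites g) (pvaeCol g c)` at `η = pvConf (pvMerge (g, c))`, `pvae_col_flip`
sec. 3  **`pvae_plane_quench`**, **`pvae_plane`**, `pvae_plane_P` (target in the form `{η | P (cfSites η) (dlsCol η)}`), `pvae_half` (numbers: `c ≤ pvP ε Ψ`, `pvGeo ε Bad ≤ c ^ 4 / 2` ⟹ `c ^ 4 / 2 ≤ pvP ε E`)
-/

set_option autoImplicit false
set_option linter.unusedSectionVars false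
set_option linter.unusedVariables false

namespace Claimed.Agent.R289

open MeasureTheory Finset
open Claims.C0465
open scoped ENNReal

/-! ## 1. pull-back along an injection -/

section pull

variable {V W : Type} [DecidableEq V] [DecidableEq W]

/-- the fair bits of `A ⊆ W` seen through an injection `e : W → V` -/
theorem pvae_P_pull {e : W → V} (he : Function.Injective e) (A : Finset W) (c : V → Bool) (K : (W → Bool) → Prop) :
    pvaP (A.image e) c (fun c' => K (c' ∘ e)) = pvaP A (c ∘ e) K := by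
  classical
  unfold pvaP
  refine pva_E_bij (card_image_of_injective A he) (fun ω => ω ∘ e) (fun ω v => if h : ∃ w, e w = v then ω h.choose else c v) ?_ ?_ ?_ ?_
    (fun ω => if K ω then (1 : ℝ) else 0)
  · intro ω hω w hw
    refine hω (e w) fun h => hw ?_
    obtain ⟨w', hw', e'⟩ := mem_image.1 h
    rwa [← he e']
  · intro ω hω v hv
    by_cases h : ∃ w, e w = v
    · simp only [dif_pos h]
      have hA : h.choose ∉ A := fun hA => hv (mem_image.2 ⟨_, hA, h.choose_spec⟩)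
      rw [hω _ hA]
      show c (e h.choose) = c v
      rw [h.choose_spec]
    · simp only [dif_neg h]
  · intro ω hω
    funext v
    by_cases h : ∃ w, e w = v
    · simp only [dif_pos h]
      show ω (e h.choose) = ω v
      rw [h.choose_spec]
    · simp only [dif_neg h]
      refine (hω v fun hv => h ?_).symm
      obtain ⟨w, _, e'⟩ := mem_image.1 hv
      exact ⟨w, e'⟩
  · intro ω _
    funext w
    have h : ∃ w', e w' = e w := ⟨w, rfl⟩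
    show (if h : ∃ w', e w' = e w then ω h.choose else c (e w)) = ω w
    rw [dif_pos h, he h.choose_spec]

/-- a lower bound for EVERY background gives the lower bound under the law; `K` is ANY property -/
theorem pvae_le_law (A : Finset V) {K : (V → Bool) → Prop} {q : ℝ} (h : ∀ ξ, q ≤ pvaP A ξ K) : ENNReal.ofReal q ≤ colLaw V {ω | K ω} := by
  have hm : MeasurableSet {ω | ω ∈ toMeasurable (colLaw V) {ω | K ω}} := measurableSet_toMeasurable _ _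
  have h1 := pval_le_real A hm (q := q) fun ξ => (h ξ).trans (pva_P_mono fun ω _ hk => subset_toMeasurable _ _ hk)
  rw [← measure_toMeasurable]
  calc ENNReal.ofReal q ≤ ENNReal.ofReal ((colLaw V).real {ω | ω ∈ toMeasurable (colLaw V) {ω | K ω}}) := ENNReal.ofReal_le_ofReal h1
    _ = colLaw V (toMeasurable (colLaw V) {ω | K ω}) := by
      rw [measureReal_def, ENNReal.ofReal_toReal (measure_ne_top _ _)]
      rfl

theorem pvae_le_pull {e : W → V} (he : Function.Injective e) (A : Finset W) {K : (W → Bool) → Prop} {q : ℝ} (h : ∀ ξ, q ≤ pvaP A ξ K) :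
    ENNReal.ofReal q ≤ colLaw V {c | K (c ∘ e)} :=
  pvae_le_law (A.image e) fun ξ => by rw [pvae_P_pull he]; exact h _

/-- a local event seen through the injection -/
theorem pvae_pull_eq {e : W → V} (he : Function.Injective e) {A : Finset W} {F : (W → Bool) → Prop} (hF : PvalLoc A F) (ξ : W → Bool) :
    colLaw V {c | F (c ∘ e)} = ENNReal.ofReal (pvaP A ξ F) := by
  have hl : PvalLoc (A.image e) (fun c : V → Bool => F (c ∘ e)) := fun c c' h => hF _ _ fun w hw => h (e w) (mem_image_of_mem e hw)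
  rw [pval_measure hl (fun _ => false), pvae_P_pull he, ← pval_real hF, ← pval_real hF ξ]

/-- **FOUR CLASSES THROUGH THE INJECTION** -/
theorem pvae_pull_four {e : W → V} (he : Function.Injective e) {A : Finset W} {F₁ F₂ F₃ F₄ G : (W → Bool) → Prop} (h₁ : PvalLoc A F₁) (h₂ : PvalLoc A F₂)
    (h₃ : PvalLoc A F₃) (h₄ : PvalLoc A F₄) (h : ∀ ξ, pvaP A ξ F₁ * pvaP A ξ F₂ * (pvaP A ξ F₃ * pvaP A ξ F₄) ≤ pvaP A ξ G) :
    colLaw V {c | F₁ (c ∘ e)} * colLaw V {c | F₂ (c ∘ e)} * (colLaw V {c | F₃ (c ∘ e)} * colLaw V {c | F₄ (c ∘ e)}) ≤ colLaw V {c | G (c ∘ e)} := by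
  let ξ₀ : W → Bool := fun _ => false
  have hc : ∀ {F : (W → Bool) → Prop}, PvalLoc A F → ∀ ξ, pvaP A ξ F = pvaP A ξ₀ F := fun hF ξ => by rw [← pval_real hF ξ, ← pval_real hF ξ₀]
  rw [pvae_pull_eq he h₁ ξ₀, pvae_pull_eq he h₂ ξ₀, pvae_pull_eq he h₃ ξ₀, pvae_pull_eq he h₄ ξ₀, ← ENNReal.ofReal_mul (pva_P_nonneg _ _ _),
    ← ENNReal.ofReal_mul (pva_P_nonneg _ _ _), ← ENNReal.ofReal_mul (mul_nonneg (pva_P_nonneg _ _ _) (pva_P_nonneg _ _ _))]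
  refine pvae_le_pull he A fun ξ => ?_
  rw [← hc h₁ ξ, ← hc h₂ ξ, ← hc h₃ ξ, ← hc h₄ ξ]
  exact h ξ

end pull

/-! ## 2. the colouring of the sites of a geometry -/

/-- the index of a site -/
noncomputable def pvaeIdx (g : PvGeoT) (v : pvgSites g) : PvIx := pvgIdx g v

/-- the colouring of the sites of `g` given by the colours `c` of the indices -/
noncomputable def pvaeCol (g : PvGeoT) (c : PvColT) : pvgSites g → Bool := c ∘ pvaeIdx g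

theorem pvae_eqns_cite : True := by
  have := @pvaeIdx.eq_1; have := @pvaeCol.eq_1
  trivial

theorem pvae_idx_inj (g : PvGeoT) : Function.Injective (pvaeIdx g) := fun v w h => Subtype.ext (pvqu_idx_injOn g v.2 w.2 h)

theorem pvae_cast_aux (P : ∀ Y : Set ℂ, (Y → Bool) → Prop) {η : Conf PvPt} {Y : Set ℂ} (h : cfSites η = Y) :
    P (cfSites η) (dlsCol η) ↔ P Y (fun v => cfCol η v) := by
  subst h
  rfl

/-- **NO DEPENDENT TYPES**: a property of (site set, colouring of the sites) at the sample `(g, c)`, `g` good -/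
theorem pvae_col_cast (P : ∀ Y : Set ℂ, (Y → Bool) → Prop) {g : PvGeoT} (hg : PvgOk g) (c : PvColT) :
    P (cfSites (pvConf (pvMerge (g, c)))) (dlsCol (pvConf (pvMerge (g, c)))) ↔ P (pvgSites g) (pvaeCol g c) := by
  rw [pvae_cast_aux P (pvqu_cfSites g c)]
  have e : (fun v : pvgSites g => cfCol (pvConf (pvMerge (g, c))) v) = pvaeCol g c := funext fun v => pval_cfCol hg c v.2
  rw [e]

theorem pvae_col_flip (g : PvGeoT) (c : PvColT) : pvaeCol g (pvColFlip c) = fun v => !pvaeCol g c v := rfl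

/-! ## 3. the plane -/

/-- **THE QUENCHED PRODUCT BOUND** at the geometry `g` from the finite inequality on the sites of `g` -/
theorem pvae_plane_quench (g : PvGeoT) {𝒜₁ 𝒜₂ 𝒜₃ 𝒜₄ E : Set (Conf PvPt)} {A : Finset (pvgSites g)} {F₁ F₂ F₃ F₄ G : (pvgSites g → Bool) → Prop}
    (l₁ : PvalLoc A F₁) (l₂ : PvalLoc A F₂) (l₃ : PvalLoc A F₃) (l₄ : PvalLoc A F₄)
    (h : ∀ ξ, pvaP A ξ F₁ * pvaP A ξ F₂ * (pvaP A ξ F₃ * pvaP A ξ F₄) ≤ pvaP A ξ G)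
    (h₁ : ∀ c, pvConf (pvMerge (g, c)) ∈ 𝒜₁ → F₁ (pvaeCol g c)) (h₂ : ∀ c, pvConf (pvMerge (g, c)) ∈ 𝒜₂ → F₂ (pvaeCol g c))
    (h₃ : ∀ c, pvConf (pvMerge (g, c)) ∈ 𝒜₃ → F₃ (pvaeCol g c)) (h₄ : ∀ c, pvConf (pvMerge (g, c)) ∈ 𝒜₄ → F₄ (pvaeCol g c))
    (hG : ∀ c, G (pvaeCol g c) → pvConf (pvMerge (g, c)) ∈ E) :
    pvQc 𝒜₁ g * pvQc 𝒜₂ g * (pvQc 𝒜₃ g * pvQc 𝒜₄ g) ≤ pvQc E g := by
  have key := pvae_pull_four (V := PvIx) (pvae_idx_inj g) l₁ l₂ l₃ l₄ h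
  have m : ∀ {𝒜 : Set (Conf PvPt)} {F : (pvgSites g → Bool) → Prop}, (∀ c, pvConf (pvMerge (g, c)) ∈ 𝒜 → F (pvaeCol g c)) →
      pvQc 𝒜 g ≤ colLaw PvIx {c | F (c ∘ pvaeIdx g)} := fun hF => measure_mono fun c hc => hF c hc
  calc pvQc 𝒜₁ g * pvQc 𝒜₂ g * (pvQc 𝒜₃ g * pvQc 𝒜₄ g)
      ≤ colLaw PvIx {c | F₁ (c ∘ pvaeIdx g)} * colLaw PvIx {c | F₂ (c ∘ pvaeIdx g)} *
          (colLaw PvIx {c | F₃ (c ∘ pvaeIdx g)} * colLaw PvIx {c | F₄ (c ∘ pvaeIdx g)}) :=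
        mul_le_mul' (mul_le_mul' (m h₁) (m h₂)) (mul_le_mul' (m h₃) (m h₄))
    _ ≤ colLaw PvIx {c | G (c ∘ pvaeIdx g)} := key
    _ ≤ pvQc E g := measure_mono fun c hc => hG c hc

/-- **THE PROBABILITY HALF OF THE INSTANCE** -/
theorem pvae_plane (ε : ℝ) {Ψ 𝒜₁ 𝒜₂ 𝒜₃ 𝒜₄ : Set (Conf PvPt)} (hΨ : MeasurableSet Ψ) (E : Set (Conf PvPt)) (Bad : Set PvGeoT)
    (h₁ : Ψ ⊆ 𝒜₁) (h₂ : ∀ η ∈ Ψ, cfFlip η ∈ 𝒜₂) (h₃ : Ψ ⊆ 𝒜₃) (h₄ : ∀ η ∈ Ψ, cfFlip η ∈ 𝒜₄)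
    (h : ∀ g, g ∉ Bad → ∃ (A : Finset (pvgSites g)) (F₁ F₂ F₃ F₄ G : (pvgSites g → Bool) → Prop),
      PvalLoc A F₁ ∧ PvalLoc A F₂ ∧ PvalLoc A F₃ ∧ PvalLoc A F₄ ∧
      (∀ ξ, pvaP A ξ F₁ * pvaP A ξ F₂ * (pvaP A ξ F₃ * pvaP A ξ F₄) ≤ pvaP A ξ G) ∧
      (∀ c, pvConf (pvMerge (g, c)) ∈ 𝒜₁ → F₁ (pvaeCol g c)) ∧ (∀ c, pvConf (pvMerge (g, c)) ∈ 𝒜₂ → F₂ (pvaeCol g c)) ∧
      (∀ c, pvConf (pvMerge (g, c)) ∈ 𝒜₃ → F₃ (pvaeCol g c)) ∧ (∀ c, pvConf (pvMerge (g, c)) ∈ 𝒜₄ → F₄ (pvaeCol g c)) ∧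
      (∀ c, G (pvaeCol g c) → pvConf (pvMerge (g, c)) ∈ E)) :
    pvP ε Ψ ^ 4 ≤ pvP ε E + pvGeo ε Bad := by
  refine pvae_main ε hΨ E Bad h₁ h₂ h₃ h₄ fun g hg => ?_
  obtain ⟨A, F₁, F₂, F₃, F₄, G, l₁, l₂, l₃, l₄, hh, a₁, a₂, a₃, a₄, hG⟩ := h g hg
  exact pvae_plane_quench g l₁ l₂ l₃ l₄ hh a₁ a₂ a₃ a₄ hG

/-- the same, all the events in the form `{η | P (cfSites η) (dlsCol η)}`; the bad set contains the geometries which are not `PvgOk` -/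
theorem pvae_plane_P (ε : ℝ) {Ψ : Set (Conf PvPt)} (hΨ : MeasurableSet Ψ) (P₁ P₂ P₃ P₄ P : ∀ Y : Set ℂ, (Y → Bool) → Prop) (Bad : Set PvGeoT)
    (h₁ : ∀ η ∈ Ψ, P₁ (cfSites η) (dlsCol η)) (h₂ : ∀ η ∈ Ψ, P₂ (cfSites (cfFlip η)) (dlsCol (cfFlip η)))
    (h₃ : ∀ η ∈ Ψ, P₃ (cfSites η) (dlsCol η)) (h₄ : ∀ η ∈ Ψ, P₄ (cfSites (cfFlip η)) (dlsCol (cfFlip η)))
    (hok : ∀ g, g ∉ Bad → PvgOk g)
    (h : ∀ g, g ∉ Bad → ∃ A : Finset (pvgSites g), PvalLoc A (P₁ (pvgSites g)) ∧ PvalLoc A (P₂ (pvgSites g)) ∧ PvalLoc A (P₃ (pvgSites g)) ∧ PvalLoc A (P₄ (pvgSites g)) ∧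
      ∀ ξ, pvaP A ξ (P₁ (pvgSites g)) * pvaP A ξ (P₂ (pvgSites g)) * (pvaP A ξ (P₃ (pvgSites g)) * pvaP A ξ (P₄ (pvgSites g))) ≤ pvaP A ξ (P (pvgSites g))) :
    pvP ε Ψ ^ 4 ≤ pvP ε {η | P (cfSites η) (dlsCol η)} + pvGeo ε Bad := by
  refine pvae_plane ε hΨ _ Bad (𝒜₁ := {η | P₁ (cfSites η) (dlsCol η)}) (𝒜₂ := {η | P₂ (cfSites η) (dlsCol η)}) (𝒜₃ := {η | P₃ (cfSites η) (dlsCol η)})
    (𝒜₄ := {η | P₄ (cfSites η) (dlsCol η)}) h₁ h₂ h₃ h₄ fun g hg => ?_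
  obtain ⟨A, l₁, l₂, l₃, l₄, hh⟩ := h g hg
  have ok := hok g hg
  exact ⟨A, _, _, _, _, _, l₁, l₂, l₃, l₄, hh, fun c hc => (pvae_col_cast P₁ ok c).1 hc, fun c hc => (pvae_col_cast P₂ ok c).1 hc,
    fun c hc => (pvae_col_cast P₃ ok c).1 hc, fun c hc => (pvae_col_cast P₄ ok c).1 hc, fun c hc => (pvae_col_cast P ok c).2 hc⟩

/-- numbers -/
theorem pvae_half {x y z c : ℝ≥0∞} (h : x ^ 4 ≤ y + z) (hc : c ≤ x) (hz : z ≤ c ^ 4 / 2) (hfin : c ≠ ∞) : c ^ 4 / 2 ≤ y := by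
  have h1 : c ^ 4 ≤ y + c ^ 4 / 2 := (pow_le_pow_left' hc 4).trans (h.trans (add_le_add le_rfl hz))
  have h2 : c ^ 4 / 2 ≠ ∞ := ENNReal.div_ne_top (ENNReal.pow_ne_top hfin) (by norm_num)
  have h3 : c ^ 4 / 2 + c ^ 4 / 2 ≤ y + c ^ 4 / 2 := by rwa [ENNReal.add_halves]
  exact (ENNReal.add_le_add_iff_right h2).1 h3

end Claimed.Agent.R289
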